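import Mathlib
import Vale.Agent.P260.H493.Spec
import Vale.Agent.P260.H156.Half

/-!
# P260, M3a: existence of half-spaces above the components of bands
-/

namespace Vale.Agent.P260.H989

open Vale.Agent.P260.H493 Vale.Agent.P260.H156

variable {Γ : Type} [Group Γ]

/-- The walk from `x` with letters `w` has a step that starts at `y` and has letter `s`. -/
def Step : Γ → List Γ → Γ → Γ → Prop
  | _, [], _, _ => False
  | x, r :: w, y, s => (y = x ∧ s = r) ∨ Step (x * r) w y s

theorem step_mem {S : Finset Γ} {w : List Γ} (hw : ∀ s ∈ w, s ∈ S) {x y s : Γ}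
    (h : Step x w y s) : s ∈ S := by
  induction w generalizing x with
  | nil => exact h.elim
  | cons r w ih =>
    rcases h with ⟨_, h⟩ | h
    · rw [h]; exact hw r (by simp)
    · exact ih (fun s hs => hw s (List.mem_cons_of_mem _ hs)) h

theorem step_dist {θ : Γ → ℝ} (hc : IsChar θ) {S : Finset Γ} {ρ : ℝ} (hρ : ∀ s ∈ S, |θ s| ≤ ρ)
    {w : List Γ} (hw : ∀ s ∈ w, s ∈ S) {x y s : Γ} (h : Step x w y s) :
    |θ y - θ x| ≤ w.length * ρ := by
  induction w generalizing x with
  | nil => exact h.elim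
  | cons r w ih =>
    have hr := hρ r (hw r (by simp))
    have h0 : 0 ≤ ρ := (abs_nonneg _).trans hr
    have h1 : (0 : ℝ) ≤ w.length * ρ := by positivity
    have h2 : (((r :: w).length : ℕ) : ℝ) * ρ = w.length * ρ + ρ := by
      rw [List.length_cons]; push_cast; ring
    rw [h2]
    rcases h with ⟨h, _⟩ | h
    · rw [h, sub_self, abs_zero]; linarith
    · have := ih (fun s hs => hw s (List.mem_cons_of_mem _ hs)) h
      calc |θ y - θ x| = |(θ y - θ (x * r)) + θ r| := by rw [hc x r]; ring_nf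
        _ ≤ |θ y - θ (x * r)| + |θ r| := abs_add_le _ _
        _ ≤ _ := by linarith

theorem psum_append {K : Type} [AddCommMonoid K] (c : Γ → Γ → K) (x : Γ) (w w' : List Γ) :
    psum c x (w ++ w') = psum c x w + psum c (x * w.prod) w' := by
  induction w generalizing x with
  | nil => simp [psum]
  | cons s w ih => simp [psum, ih, add_assoc, mul_assoc]

theorem exists_word {S : Finset Γ} (hS : GenSet S) (g : Γ) :
    ∃ w : List Γ, (∀ s ∈ w, s ∈ S) ∧ w.prod = g := by
  have hg : g ∈ Subgroup.closure (S : Set Γ) := by rw [hS.gen]; trivial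
  refine Subgroup.closure_induction (p := fun g _ => ∃ w : List Γ, (∀ s ∈ w, s ∈ S) ∧ w.prod = g)
    ?_ ?_ ?_ ?_ hg
  · intro x hx
    exact ⟨[x], fun s hs => by rw [List.mem_singleton.1 hs]; exact hx, by simp⟩
  · exact ⟨[], by simp, rfl⟩
  · rintro x y _ _ ⟨w, hw, hp⟩ ⟨w', hw', hp'⟩
    refine ⟨w ++ w', fun s hs => ?_, by rw [List.prod_append, hp, hp']⟩
    rcases List.mem_append.1 hs with hs | hs
    · exact hw s hs
    · exact hw' s hs
  · rintro x _ ⟨w, hw, hp⟩
    refine ⟨(w.map fun x => x⁻¹).reverse, fun s hs => ?_, by rw [← List.prod_inv_reverse, hp]⟩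
    rw [List.mem_reverse, List.mem_map] at hs
    obtain ⟨r, hr, rfl⟩ := hs
    exact hS.inv r (hw r hr)

/-- potential of a cochain without periods -/
theorem exists_pot {S : Finset Γ} (hS : GenSet S) (c : Γ → Γ → ℚ) (x₀ : Γ)
    (h : ∀ x (w : List Γ), (∀ s ∈ w, s ∈ S) → w.prod = 1 → psum c x w = 0) :
    ∃ v : Γ → ℚ, v x₀ = 0 ∧ ∀ x s, s ∈ S → v (x * s) = v x + c x s := by
  choose wd hwd hwp using fun g => exists_word hS g
  have key : ∀ (w : List Γ), (∀ s ∈ w, s ∈ S) → psum c x₀ w = psum c x₀ (wd w.prod) := by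
    intro w hw
    have h1 := h x₀ (w ++ wd (w.prod)⁻¹) (by
      intro s hs
      rcases List.mem_append.1 hs with hs | hs
      · exact hw s hs
      · exact hwd _ s hs) (by rw [List.prod_append, hwp, mul_inv_cancel])
    have h2 := h x₀ (wd w.prod ++ wd (w.prod)⁻¹) (by
      intro s hs
      rcases List.mem_append.1 hs with hs | hs
      · exact hwd _ s hs
      · exact hwd _ s hs) (by rw [List.prod_append, hwp, hwp, mul_inv_cancel])
    rw [psum_append] at h1 h2
    rw [hwp] at h2
    linarith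
  refine ⟨fun y => psum c x₀ (wd (x₀⁻¹ * y)), ?_, ?_⟩
  · exact h x₀ _ (hwd _) (by rw [hwp]; group)
  · intro x s hs
    have := key (wd (x₀⁻¹ * x) ++ [s]) (by
      intro r hr
      rcases List.mem_append.1 hr with hr | hr
      · exact hwd _ r hr
      · rw [List.mem_singleton.1 hr]; exact hs)
    rw [psum_append, List.prod_append, hwp] at this
    simp only [psum, List.prod_singleton, add_zero] at this
    have e1 : x₀ * (x₀⁻¹ * x) = x := by group
    have e2 : x₀⁻¹ * x * s = x₀⁻¹ * (x * s) := by group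
    rw [e1, e2] at this
    exact this.symm

section

variable {S : Finset Γ} {N : ℕ} {θ : Γ → ℝ}

open Classical in
/-- indicator of the superlevel set -/
noncomputable def tau (θ : Γ → ℝ) (t : ℝ) (x : Γ) : ℚ := if t ≤ θ x then 1 else 0

open Classical in
/-- the cochain of a component -/
noncomputable def cK (θ : Γ → ℝ) (t : ℝ) (K : Γ → Prop) (x s : Γ) : ℚ :=
  if K x then tau θ t (x * s) - tau θ t x else 0

theorem psum_in {t : ℝ} {K : Γ → Prop} {w : List Γ} {x : Γ}
    (h : ∀ y s, Step x w y s → K y) :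
    psum (cK θ t K) x w = tau θ t (x * w.prod) - tau θ t x := by
  induction w generalizing x with
  | nil => simp [psum]
  | cons s w ih =>
    rw [psum, ih (fun y r hy => h y r (Or.inr hy)), cK, if_pos (h x s (Or.inl ⟨rfl, rfl⟩)),
      List.prod_cons, ← mul_assoc]
    ring

theorem psum_zero {t : ℝ} {K : Γ → Prop} {w : List Γ} {x : Γ}
    (h : ∀ y s, Step x w y s → cK θ t K y s = 0) : psum (cK θ t K) x w = 0 := by
  induction w generalizing x with
  | nil => rfl
  | cons s w ih =>
    rw [psum, ih (fun y r hy => h y r (Or.inr hy)), h x s (Or.inl ⟨rfl, rfl⟩), add_zero]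

theorem conn_next {Q : Γ → Prop} {k x s : Γ} (h : Conn S Q k x) (hs : s ∈ S) (hQ : Q (x * s)) :
    Conn S Q k (x * s) := ⟨h.1.tail ⟨⟨s, hs, rfl⟩, hQ⟩, h.2⟩

/-- membership in a component is constant along a walk in the band -/
theorem walk_K (hS : GenSet S) {Q : Γ → Prop} {k : Γ} {w : List Γ} (hw : ∀ s ∈ w, s ∈ S)
    {x : Γ} (hb : ∀ y s, Step x w y s → Q y) {y s : Γ} (h : Step x w y s) :
    Conn S Q k y ↔ Conn S Q k x := by
  induction w generalizing x with
  | nil => exact h.elim
  | cons r w ih =>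
    rcases h with ⟨h, _⟩ | h
    · rw [h]
    · rw [ih (fun s hs => hw s (List.mem_cons_of_mem _ hs))
        (fun y s hy => hb y s (Or.inr hy)) h]
      have hx : Q x := hb x r (Or.inl ⟨rfl, rfl⟩)
      have hxr : Q (x * r) := by
        cases w with
        | nil => exact h.elim
        | cons r' w => exact hb (x * r) r' (Or.inr (Or.inl ⟨rfl, rfl⟩))
      have hr := hw r (by simp)
      constructor
      · intro h'
        have := conn_next h' (hS.inv r hr) (by rwa [mul_inv_cancel_right])
        rwa [mul_inv_cancel_right] at this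
      · intro h'
        exact conn_next h' hr hxr

theorem psum_short (hS : GenSet S) (hc : IsChar θ) {ρ : ℝ} (hρ : ∀ s ∈ S, |θ s| ≤ ρ)
    {t : ℝ} {k : Γ} {w : List Γ} {x : Γ}
    (hw : ∀ s ∈ w, s ∈ S) (hp : w.prod = 1) (hl : w.length ≤ N) :
    psum (cK θ t (Conn S (band θ ((2 * N + 1) * ρ) t) k)) x w = 0 := by
  set Q := band θ ((2 * N + 1) * ρ) t with hQ
  by_cases hcr : ∃ y s, Step x w y s ∧ tau θ t (y * s) ≠ tau θ t y
  · obtain ⟨y, s, hy, hne⟩ := hcr
    have hs := hρ s (step_mem hw hy)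
    have h0 : 0 ≤ ρ := (abs_nonneg _).trans hs
    have hyt : |θ y - t| ≤ ρ := by
      have h1 := hc y s
      rw [abs_le] at hs ⊢
      unfold tau at hne
      by_cases ha : t ≤ θ y <;> by_cases hb : t ≤ θ (y * s)
      · rw [if_pos ha, if_pos hb] at hne; exact absurd rfl hne
      · push Not at hb; constructor <;> linarith
      · push Not at ha; constructor <;> linarith
      · rw [if_neg ha, if_neg hb] at hne; exact absurd rfl hne
    have hb : ∀ z r, Step x w z r → Q z := by
      intro z r hz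
      have h1 := step_dist hc hρ hw hz
      have h2 := step_dist hc hρ hw hy
      have h3 : (w.length : ℝ) * ρ ≤ N * ρ := by
        apply mul_le_mul_of_nonneg_right _ h0
        exact_mod_cast hl
      show |θ z - t| ≤ (2 * N + 1) * ρ
      rw [abs_le] at *
      constructor <;> linarith [h1.1, h1.2, h2.1, h2.2, hyt.1, hyt.2]
    by_cases hx : Conn S Q k x
    · rw [psum_in (fun z r hz => (walk_K hS hw hb hz).2 hx), hp, mul_one, sub_self]
    · refine psum_zero fun z r hz => ?_
      rw [cK, if_neg fun h => hx ((walk_K hS hw hb hz).1 h)]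
  · refine psum_zero fun z r hz => ?_
    have : tau θ t (z * r) = tau θ t z := by
      by_contra h
      exact hcr ⟨z, r, hz, h⟩
    rw [cK, this, sub_self, ite_self]

end

/-- M3a -/
theorem half : StmtHalf := by
  intro Γ _ S N θ hS hF hc
  obtain ⟨ρ, h0, hρ⟩ : ∃ ρ : ℝ, 0 ≤ ρ ∧ ∀ s ∈ S, |θ s| ≤ ρ :=
    ⟨∑ s ∈ S, |θ s|, Finset.sum_nonneg fun s _ => abs_nonneg _,
      fun s hs => Finset.single_le_sum (f := fun s => |θ s|) (fun s _ => abs_nonneg _) hs⟩
  refine ⟨(2 * N + 1) * ρ, fun s hs => (hρ s hs).trans ?_, fun t k hk => ?_⟩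
  · have : (0 : ℝ) ≤ 2 * N * ρ := by positivity
    linarith
  set Q := band θ ((2 * N + 1) * ρ) t with hQ
  obtain ⟨v, hv0, hv⟩ := exists_pot hS (cK θ t (Conn S Q k)) k
    (hF _ (fun x w hw hp hl => psum_short hS hc hρ hw hp hl))
  have hK : ∀ x, Conn S Q k x → v x = tau θ t x - tau θ t k := by
    rintro x ⟨h, hk'⟩
    induction h with
    | refl => rw [hv0, sub_self]
    | @tail a b hab hstep ih =>
      obtain ⟨⟨s, hs, rfl⟩, _⟩ := hstep
      rw [hv a s hs, ih, cK, if_pos ⟨hab, hk'⟩]
      ring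
  have hone : ∀ x, tau θ t x = 1 ↔ t ≤ θ x := by
    intro x
    unfold tau
    by_cases h : t ≤ θ x
    · simp [h]
    · simp [h]
  refine ⟨{x | v x + tau θ t k = 1}, fun x hx => ?_, fun x hx s hs => ?_, fun x hx s hs => ?_⟩
  · show v x + tau θ t k = 1 ↔ _
    rw [hK x hx, sub_add_cancel, hone]
  · show v (x * s) + tau θ t k = 1 ↔ _
    rw [hv x s hs, hK x hx, cK, if_pos hx, ← hone]
    have : tau θ t x - tau θ t k + (tau θ t (x * s) - tau θ t x) + tau θ t k
      = tau θ t (x * s) := by ring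
    rw [this]
  · show v (x * s) + tau θ t k = 1 ↔ v x + tau θ t k = 1
    rw [hv x s hs, cK, if_neg hx, add_zero]

end Vale.Agent.P260.H989
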